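import Vale.Agent.P235.H538.Cor
import Vale.Agent.P235.H957.Final

/-!
# P235: what follows at once from a bound for all planar graphs

`closure`: if `c₁` is bounded on the connected planar graphs, then it is bounded on graphs of
Euler genus `g` after deleting `t` vertices, with rounds of deletions, on path decompositions of
bounded adhesion with such bags, and on the classes `AllSurf` over such graphs and all graphs of
bounded treewidth.
-/

namespace Vale.Agent.P235.ST.H690

open Vale.Agent.P235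

/-- After deleting some set of at most `t` vertices every component of `G` has at most one vertex
or a rotation system of Euler genus at most `g`. -/
def NearGenus (g t : ℕ) (V : Type) (G : SimpleGraph V) : Prop :=
  ∃ X : Set V, X.ncard ≤ t ∧ ∀ u ∉ X,
    (compSet G X u).Subsingleton ∨ ∃ σ, SurfMap g (G.induce (compSet G X u)) σ

/-- the planar theorem with constant `C` -/
def PlanarC (C : ℝ) : Prop := ∀ (V : Type) [Finite V] (G : SimpleGraph V), G.Connected →
  (∃ σ : Equiv.Perm G.Dart, PlaneMap G σ) → DistortionLE G C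

/-- Euler genus `g` -/
theorem surf_c {C : ℝ} (hC : 1 ≤ C) (h : PlanarC C) (g : ℕ) (V : Type) [Finite V]
    (G : SimpleGraph V) (hc : G.Connected) (hσ : ∃ σ, SurfMap g G σ) :
    DistortionLE G (10000000 * (C + Real.log (g + 2))) := by
  refine genus_distortion g hC V G hc hσ ?_
  rintro S hS ⟨σ, hσ⟩
  exact h S (G.induce S) hS ⟨σ, SurfMap.plane hS hσ⟩

theorem log_lb (a : ℕ) : 1 / 2 ≤ Real.log ((a : ℝ) + 2) := by
  have h1 : (0 : ℝ) ≤ a := Nat.cast_nonneg a
  have h2 : Real.log 2 ≤ Real.log ((a : ℝ) + 2) := Real.log_le_log (by norm_num) (by linarith)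
  have := Real.log_two_gt_d9
  linarith

/-- Euler genus `g` after deleting `t` vertices -/
theorem near_c {C : ℝ} (hC : 1 ≤ C) (h : PlanarC C) : ∃ A : ℝ, 1 ≤ A ∧
    ∀ (g t : ℕ) (V : Type) [Finite V] (G : SimpleGraph V), G.Connected →
    NearGenus g t V G →
    DistortionLE G (A * (Real.log (g + 2) + Real.log (t + 2))) := by
  obtain ⟨B, hB1, hB⟩ := apex_log'
  refine ⟨B * (10000000 * (2 * C + 1)), by nlinarith, ?_⟩
  rintro g t V _ G hc ⟨X, hX, hcomp⟩
  have hlg := log_lb g
  have hlt := log_lb t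
  have hK0 : 0 ≤ 10000000 * (C + Real.log ((g : ℝ) + 2)) := by
    have : 0 ≤ C := by linarith
    positivity
  refine (hB _ hK0 t V G hc X hX fun u hu => ?_).mono ?_
  · have hS := comp_connected (G := G) hu
    rcases hcomp u hu with h1 | ⟨σ, hσ⟩
    · have : Subsingleton (compSet G X u) := h1.coe_sort
      exact distortion_subsingleton _ hS.nonempty
    · exact surf_c hC h g _ _ hS ⟨σ, hσ⟩
  · have e1 : C ≤ 2 * C * Real.log ((g : ℝ) + 2) := by nlinarith
    have e2 : 10000000 * (C + Real.log ((g : ℝ) + 2)) + Real.log ((t : ℝ) + 2) ≤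
        10000000 * (2 * C + 1) * (Real.log ((g : ℝ) + 2) + Real.log ((t : ℝ) + 2)) := by
      nlinarith
    have := mul_le_mul_of_nonneg_left e2 (show (0 : ℝ) ≤ B by linarith)
    nlinarith

/-- rounds over the class `NearGenus` -/
theorem strip_c {C : ℝ} (hC : 1 ≤ C) (h : PlanarC C) : ∃ A : ℝ, 1 ≤ A ∧
    ∀ (g t s g' k : ℕ) (V : Type) [Finite V] (G : SimpleGraph V), G.Connected →
    (∀ ℓ : Sym2 V → ℝ, (∀ e ∈ G.edgeSet, 0 < ℓ e) → SurfStrip (NearGenus g t) s g' k G ℓ) →
    DistortionLE G (A * (Real.log (g + 2) + Real.log (t + 2) +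
      k * (g' + Real.log (s + 2)))) := by
  obtain ⟨A, hA1, hA⟩ := near_c hC h
  refine ⟨5000000 * A, by linarith, ?_⟩
  intro g t s g' k V _ G hc hstrip
  have hlg := log_lb g
  have hlt := log_lb t
  have hls := log_lb s
  have h1 : 1 ≤ A * (Real.log (g + 2) + Real.log (t + 2)) := by nlinarith
  refine (surfStrip_distortion (NearGenus g t) h1
    (fun V _ G hc hG => hA g t V G hc hG) s g' k V G hc hstrip).mono ?_
  have hk : 0 ≤ (k : ℝ) * (g' + Real.log ((s : ℝ) + 2)) := by positivity
  nlinarith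

/-- path decompositions of adhesion `w` -/
theorem path_c {C : ℝ} (hC : 1 ≤ C) (h : PlanarC C) : ∃ A : ℝ, 1 ≤ A ∧
    ∀ (g t w N : ℕ) (V : Type) [Finite V] (G : SimpleGraph V), G.Connected →
    ∀ (B : Fin N → Set V), PathDec G w B →
    (∀ i, ∀ u ∈ B i, NearGenus g t _ (G.induce (compSet G (B i)ᶜ u))) →
    DistortionLE G (A * (Real.log (g + 2) + Real.log (t + 2) + √w)) := by
  obtain ⟨A, hA1, hA⟩ := near_c hC h
  refine ⟨3328000 * A, by linarith, ?_⟩
  intro g t w N V _ G hc B hB hnear
  have hlg := log_lb g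
  have hlt := log_lb t
  have h1 : 1 ≤ A * (Real.log (g + 2) + Real.log (t + 2)) := by nlinarith
  refine (pathSum_sqrt w h1 V G hc N B hB fun i u hu => ?_).mono ?_
  · exact hA g t _ _ (comp_connected (by simpa using hu)) (hnear i u hu)
  · have hw : 0 ≤ √(w : ℝ) := Real.sqrt_nonneg _
    nlinarith

/-- **The closure**: one constant. -/
theorem closure (hP : ∃ K : ℝ, PlanarC K) : ∃ C : ℝ, 1 ≤ C ∧
    (∀ (V : Type) [Finite V] (G : SimpleGraph V), G.Connected →
      (∃ σ : Equiv.Perm G.Dart, PlaneMap G σ) → DistortionLE G C) ∧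
    (∀ (g t : ℕ) (V : Type) [Finite V] (G : SimpleGraph V), G.Connected →
      NearGenus g t V G →
      DistortionLE G (C * (Real.log (g + 2) + Real.log (t + 2)))) ∧
    (∀ (g t s g' k : ℕ) (V : Type) [Finite V] (G : SimpleGraph V), G.Connected →
      (∀ ℓ : Sym2 V → ℝ, (∀ e ∈ G.edgeSet, 0 < ℓ e) → SurfStrip (NearGenus g t) s g' k G ℓ) →
      DistortionLE G (C * (Real.log (g + 2) + Real.log (t + 2) +
        k * (g' + Real.log (s + 2))))) ∧
    (∀ (g t w N : ℕ) (V : Type) [Finite V] (G : SimpleGraph V), G.Connected →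
      ∀ (B : Fin N → Set V), PathDec G w B →
      (∀ i, ∀ u ∈ B i, NearGenus g t _ (G.induce (compSet G (B i)ᶜ u))) →
      DistortionLE G (C * (Real.log (g + 2) + Real.log (t + 2) + √w))) ∧
    (∀ w j : ℕ, ∃ K : ℝ, ∀ (V : Type) [Finite V] (G : SimpleGraph V), G.Connected →
      AllSurf (fun V G => NearGenus w w V G ∨ TreewidthLE G w) w j G → DistortionLE G K) := by
  obtain ⟨K, hK⟩ := hP
  have hC0 : (1 : ℝ) ≤ max 1 K := le_max_left _ _
  have h : PlanarC (max 1 K) := fun V _ G hc hσ => (hK V G hc hσ).mono (le_max_right _ _)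
  obtain ⟨A1, hA1, h1⟩ := near_c hC0 h
  obtain ⟨A2, hA2, h2⟩ := strip_c hC0 h
  obtain ⟨A3, hA3, h3⟩ := path_c hC0 h
  set M := max (max 1 K) (max A1 (max A2 A3)) with hM
  have m0 : max 1 K ≤ M := le_max_left _ _
  have m1 : A1 ≤ M := (le_max_left _ _).trans (le_max_right _ _)
  have m2 : A2 ≤ M := ((le_max_left _ _).trans (le_max_right _ _)).trans (le_max_right _ _)
  have m3 : A3 ≤ M := ((le_max_right _ _).trans (le_max_right _ _)).trans (le_max_right _ _)
  refine ⟨M, hC0.trans m0, ?_, ?_, ?_, ?_, ?_⟩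
  · intro V _ G hc hσ
    exact (h V G hc hσ).mono m0
  · intro g t V _ G hc hG
    have := log_lb g
    have := log_lb t
    exact (h1 g t V G hc hG).mono (mul_le_mul_of_nonneg_right m1 (by positivity))
  · intro g t s g' k V _ G hc hG
    have := log_lb g
    have := log_lb t
    have := log_lb s
    exact (h2 g t s g' k V G hc hG).mono (mul_le_mul_of_nonneg_right m2 (by positivity))
  · intro g t w N V _ G hc B hB hG
    have := log_lb g
    have := log_lb t
    exact (h3 g t w N V G hc B hB hG).mono (mul_le_mul_of_nonneg_right m3 (by positivity))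
  · intro w j
    obtain ⟨K2, hK2⟩ := H957.tw_bounded w
    obtain ⟨K', hK'⟩ := allSurf_bounded
      (max (A1 * (Real.log (w + 2) + Real.log (w + 2))) K2) w j
    refine ⟨K', fun V _ G hc hG => hK' _ (fun V _ G hc hG => ?_) V G hc hG⟩
    rcases hG with hG | hG
    · exact (h1 w w V G hc hG).mono (le_max_left _ _)
    · exact (hK2 V G hc hG).mono (le_max_right _ _)

end Vale.Agent.P235.ST.H690
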