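import Vale.Agent.P235.ST.H690.OpsDefs
import Vale.Agent.P235.ST.H690.Closure

/-!
# All operations, iterated: `AllSurf` and `AllRounds` in one class
-/

namespace Vale.Agent.P235.ST.H690

open Vale.Agent.P235 H536 H206

/-- one `Removable` round for given lengths -/
theorem strip_at {C : ℝ} (hC : 1 ≤ C) (w : ℕ) {V : Type} [Finite V] {G : SimpleGraph V}
    (hc : G.Connected) {ℓ : Sym2 V → ℝ} (hℓ : ∀ e ∈ G.edgeSet, 0 < ℓ e)
    (h : Strip (fun _ G => DistortionLE G C) w 1 G ℓ) :
    EmbedsL1 (pathDist G ℓ) (3328000 * (C + (1 : ℕ) * Real.log (w + 2))) := by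
  have hd := pathDist_isMet hc hℓ
  have hC0 : 0 < C := by linarith
  obtain ⟨Ω, m, μ, f, hf⟩ := pointed_embeds
    (K := 96 * C + 112 + (1 : ℕ) * (40 * ((Nat.log 2 w + 1 : ℕ) : ℝ))) (by positivity) hc hℓ
    (fun H hH hHl => strip_pointed hC0 (fun _ _ _ _ h => h) h inferInstance hc hℓ H hH hHl)
  refine ⟨Ω, m, μ, f, fun x y => ⟨(hf x y).1, (hf x y).2.trans
    (mul_le_mul_of_nonneg_right ?_ (hd.nonneg x y))⟩⟩
  have h1 := mul_le_mul_of_nonneg_left (log_add_two w) (Nat.cast_nonneg 1 : (0 : ℝ) ≤ (1 : ℕ))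
  have h2 : 0 ≤ ((1 : ℕ) : ℝ) * Real.log (w + 2) :=
    mul_nonneg (Nat.cast_nonneg _) (Real.log_nonneg (by
      have : (0 : ℝ) ≤ w := Nat.cast_nonneg w
      linarith))
  linarith

/-- one round of lanes or a face for given lengths -/
theorem surfStrip_at {C : ℝ} (hC : 1 ≤ C) (s g : ℕ) {V : Type} [Finite V] {G : SimpleGraph V}
    (hc : G.Connected) {ℓ : Sym2 V → ℝ} (hℓ : ∀ e ∈ G.edgeSet, 0 < ℓ e)
    (h : SurfStrip (fun _ G => DistortionLE G C) s g 1 G ℓ) :
    EmbedsL1 (pathDist G ℓ) (5000000 * (C + (1 : ℕ) * (g + Real.log (s + 2)))) := by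
  have hd := pathDist_isMet hc hℓ
  have hC0 : 0 < C := by linarith
  obtain ⟨Ω, m, μ, f, hf⟩ := pointed_embeds
    (K := 96 * C + 112 + (1 : ℕ) * (100 * ((Nat.log 2 s + 1 : ℕ) : ℝ) + g)) (by positivity) hc hℓ
    (fun H hH hHl => surfStrip_pointed hC0 (fun _ _ _ _ h => h) h inferInstance hc hℓ H hH hHl)
  refine ⟨Ω, m, μ, f, fun x y => ⟨(hf x y).1, (hf x y).2.trans
    (mul_le_mul_of_nonneg_right ?_ (hd.nonneg x y))⟩⟩
  have hk0 : (0 : ℝ) ≤ (1 : ℕ) := Nat.cast_nonneg _
  have h1 := mul_le_mul_of_nonneg_left (log_add_two s) hk0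
  have h2 : 0 ≤ ((1 : ℕ) : ℝ) * Real.log (s + 2) :=
    mul_nonneg hk0 (Real.log_nonneg (by
      have : (0 : ℝ) ≤ s := Nat.cast_nonneg s
      linarith))
  have h3 : 0 ≤ ((1 : ℕ) : ℝ) * g := mul_nonneg hk0 (Nat.cast_nonneg g)
  nlinarith

theorem embeds_mono' {V : Type} {d : V → V → ℝ} {a b : ℝ} (hd : ∀ x y, 0 ≤ d x y)
    (h : EmbedsL1 d a) (hab : a ≤ b) : EmbedsL1 d b := by
  obtain ⟨Ω, m, μ, f, hf⟩ := h
  exact ⟨Ω, m, μ, f, fun x y => ⟨(hf x y).1, (hf x y).2.trans
    (mul_le_mul_of_nonneg_right hab (hd x y))⟩⟩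

/-- one round: a removable set or a union of lanes, which may depend on the lengths -/
theorem remove_step {C : ℝ} (hC : 1 ≤ C) (w : ℕ) {V : Type} [Finite V] {G : SimpleGraph V}
    (hc : G.Connected) {X : (Sym2 V → ℝ) → Set V}
    (hX : ∀ ℓ : Sym2 V → ℝ, (∀ e ∈ G.edgeSet, 0 < ℓ e) →
      (X ℓ).Nonempty ∧ (Removable G ℓ w (X ℓ) ∨ Lanes G ℓ w (X ℓ)))
    (hk : ∀ ℓ : Sym2 V → ℝ, (∀ e ∈ G.edgeSet, 0 < ℓ e) → ∀ u ∉ X ℓ,
      DistortionLE (G.induce (compSet G (X ℓ) u)) C) :
    DistortionLE G (5000000 * (C + (1 : ℕ) * (w + Real.log (w + 2)))) := by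
  intro ℓ hℓ
  have hd := pathDist_isMet hc hℓ
  obtain ⟨hne, h | h⟩ := hX ℓ hℓ
  · refine embeds_mono' hd.nonneg (strip_at hC w hc hℓ
      (Strip.round hne h fun u hu => Strip.leaf (hk ℓ hℓ u hu))) ?_
    have hw : (0 : ℝ) ≤ w := Nat.cast_nonneg w
    have hl : 0 ≤ Real.log ((w : ℝ) + 2) := Real.log_nonneg (by linarith)
    push_cast
    linarith
  · exact surfStrip_at hC w w hc hℓ
      (SurfStrip.lanes hne h fun u hu => SurfStrip.leaf (hk ℓ hℓ u hu))

/-- **All operations, iterated.** -/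
theorem allOps_bounded (C0 : ℝ) (w j : ℕ) :
    ∃ C : ℝ, ∀ P : ∀ (V : Type), SimpleGraph V → Prop,
      (∀ (V : Type) [Finite V] (G : SimpleGraph V), G.Connected → P V G → DistortionLE G C0) →
      ∀ (V : Type) [Finite V] (G : SimpleGraph V), G.Connected →
        AllOps P w j G → DistortionLE G C := by
  have hcomplete := complete_unbounded
  choose N hN using hcomplete
  let f : ℝ → ℝ := fun C => max (max (compK (N C) C) (psK w C))
    (max (5000000 * (C + (1 : ℕ) * (w + Real.log (w + 2)))) (10000000 * (C + Real.log (w + 2))))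
  let c : ℕ → ℝ := fun j => Nat.rec (max 1 C0) (fun _ C => f C) j
  have hcs : ∀ j, c (j + 1) = f (c j) := fun j => rfl
  have f1 : ∀ C, compK (N C) C ≤ f C := fun C => (le_max_left _ _).trans (le_max_left _ _)
  have f2 : ∀ C, psK w C ≤ f C := fun C => (le_max_right _ _).trans (le_max_left _ _)
  have f3 : ∀ C, 5000000 * (C + (1 : ℕ) * (w + Real.log (w + 2))) ≤ f C := fun C =>
    (le_max_left _ _).trans (le_max_right _ _)
  have f4 : ∀ C, 10000000 * (C + Real.log (w + 2)) ≤ f C := fun C =>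
    (le_max_right _ _).trans (le_max_right _ _)
  have hc1 : ∀ j, 1 ≤ c j := by
    intro j
    induction j with
    | zero => exact le_max_left _ _
    | succ j ih =>
      rw [hcs]
      exact ih.trans ((le_compK _ ih).trans (f1 _))
  refine ⟨c j, fun P hP V _ G hconn hG => ?_⟩
  revert hconn
  have key : ∀ {j : ℕ} {V : Type} {G : SimpleGraph V}, AllOps P w j G → Finite V →
      G.Connected → DistortionLE G (c j) := by
    intro j V G hG
    induction hG with
    | base hG =>
      intro _ hconn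
      exact (hP _ _ hconn hG).mono (le_max_right _ _)
    | @lift j V G hG ih =>
      intro hfin hconn
      exact (ih hfin hconn).mono ((le_compK (N (c j)) (hc1 j)).trans (f1 _))
    | @vertexSum j V G A B v hU hI hn hA hB ihA ihB =>
      intro hfin hconn
      have hcA := side_connected hconn hU hI hn
      have hcB : (G.induce B).Connected := side_connected hconn
        (by rw [Set.union_comm]; exact hU) (by rw [Set.inter_comm]; exact hI)
        (fun a b ha hb h => hn b a hb ha h.symm)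
      exact distortion_vertexSum (one_pos.trans_le (hc1 j)) hconn hU hI hn
        (ihA inferInstance hcA) (ihB inferInstance hcB)
    | @compose j V G X hX ht hk iht ihk =>
      intro hfin hconn
      have ht' := iht inferInstance (torso_connected hconn hX)
      exact (distortion_compose2 (hc1 j) hconn hX (fun u _ => attach_lt (hN (c j)) hconn hX ht' u)
        ht' fun u hu => ihk u hu inferInstance (comp_connected hu)).mono (f1 _)
    | @pathSum j n V G B hB hk ihk =>
      intro hfin hconn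
      exact (distortion_pathSum (hc1 j) w V G hconn n B ⟨hB.cover, hB.edge, hB.conv⟩ hB.adh
        fun i u hu => ihk i u hu inferInstance (comp_connected (by simpa using hu))).mono (f2 _)
    | @remove j V G X hX hk ihk =>
      intro hfin hconn
      exact (remove_step (hc1 j) w hconn hX fun ℓ hℓ u hu =>
        ihk ℓ hℓ u hu inferInstance (comp_connected hu)).mono (f3 _)
    | @face j V G σ d hσ hk ihk =>
      intro hfin hconn
      exact (surfStrip_distortion (fun _ G => DistortionLE G (c j)) (hc1 j) (fun _ _ _ _ h => h) w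
        w 1 V G hconn fun ℓ hℓ =>
        SurfStrip.face hσ fun u hu =>
          SurfStrip.leaf (ihk u hu inferInstance (comp_connected hu))).mono (f3 _)
    | @genus j V G σ hσ hk ihk =>
      intro hfin hconn
      exact (genus_distortion w (hc1 j) V G hconn ⟨σ, hσ⟩ fun S hS hp =>
        ihk S hS hp inferInstance hS).mono (f4 _)
  exact key hG inferInstance

/-- (5) with all operations: base = near-genus graphs, treewidth at most `w`, or any class with
`c₁ ≤ w` -/
theorem allOps_c (hP : ∃ K : ℝ, PlanarC K) (w j : ℕ) : ∃ K : ℝ, ∀ (V : Type) [Finite V]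
    (G : SimpleGraph V), G.Connected →
    AllOps (fun V G => NearGenus w w V G ∨ TreewidthLE G w ∨ DistortionLE G w) w j G →
    DistortionLE G K := by
  obtain ⟨K, hK⟩ := hP
  have hC0 : (1 : ℝ) ≤ max 1 K := le_max_left _ _
  have h : PlanarC (max 1 K) := fun V _ G hc hσ => (hK V G hc hσ).mono (le_max_right _ _)
  obtain ⟨A1, hA1, h1⟩ := near_c hC0 h
  obtain ⟨K2, hK2⟩ := H957.tw_bounded w
  obtain ⟨K', hK'⟩ := allOps_bounded
    (max (A1 * (Real.log (w + 2) + Real.log (w + 2))) (max K2 w)) w j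
  refine ⟨K', fun V _ G hc hG => hK' _ (fun V _ G hc hG => ?_) V G hc hG⟩
  rcases hG with hG | hG | hG
  · exact (h1 w w V G hc hG).mono (le_max_left _ _)
  · exact (hK2 V G hc hG).mono ((le_max_left _ _).trans (le_max_right _ _))
  · exact hG.mono ((le_max_right _ _).trans (le_max_right _ _))

end Vale.Agent.P235.ST.H690
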