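import Vale.Agent.P235.H206.SurfRoundDefs
import Vale.Agent.P235.H536.AllDefs

namespace Vale.Agent.P235

/-- `AllOps P w j G`: the base graphs (round `0`) are those of the class `P`; every round is
closed under gluing two graphs at one vertex; and `G` is allowed in round `j + 1` in each of these
cases. `compose`: for some nonempty vertex set `X` the torso of `X` and all components of `G - X`
are allowed in round `j`. `pathSum`: `G` has a path decomposition with bags of any size in which
consecutive bags share at most `w` vertices, and all components of the subgraph induced on any bag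
are allowed in round `j`. `remove`: for all positive edge lengths `ℓ` some nonempty set `X ℓ`, which
is `Removable` (at most `w` vertices, or a shortest path, or the vertices of a crossless list) or a
union of at most `w` lanes, is such that all components of `G - X ℓ` are allowed in round `j`.
`face`: all components left after deleting the vertices on one face of a rotation system of Euler
genus at most `w` are allowed in round `j`. `genus`: `G` has a rotation system of Euler genus at
most `w`, and all connected induced subgraphs which have a plane rotation system are allowed in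
round `j`. -/
inductive AllOps (P : ∀ (V : Type), SimpleGraph V → Prop) (w : ℕ) :
    ℕ → ∀ {V : Type}, SimpleGraph V → Prop
  | base {V : Type} {G : SimpleGraph V} : P V G → AllOps P w 0 G
  | lift {j : ℕ} {V : Type} {G : SimpleGraph V} : AllOps P w j G → AllOps P w (j + 1) G
  | vertexSum {j : ℕ} {V : Type} {G : SimpleGraph V} {A B : Set V} {v : V} :
      A ∪ B = Set.univ → A ∩ B = {v} → (∀ a b, a ∉ B → b ∉ A → ¬ G.Adj a b) →
      AllOps P w j (G.induce A) → AllOps P w j (G.induce B) → AllOps P w j G
  | compose {j : ℕ} {V : Type} {G : SimpleGraph V} {X : Set V} : X.Nonempty →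
      AllOps P w j (torso G X) → (∀ u ∉ X, AllOps P w j (G.induce (compSet G X u))) →
      AllOps P w (j + 1) G
  | pathSum {j n : ℕ} {V : Type} {G : SimpleGraph V} {B : Fin n → Set V} : PathDec G w B →
      (∀ i, ∀ u ∈ B i, AllOps P w j (G.induce (compSet G (B i)ᶜ u))) → AllOps P w (j + 1) G
  | remove {j : ℕ} {V : Type} {G : SimpleGraph V} {X : (Sym2 V → ℝ) → Set V} :
      (∀ ℓ : Sym2 V → ℝ, (∀ e ∈ G.edgeSet, 0 < ℓ e) →
        (X ℓ).Nonempty ∧ (Removable G ℓ w (X ℓ) ∨ Lanes G ℓ w (X ℓ))) →
      (∀ ℓ : Sym2 V → ℝ, (∀ e ∈ G.edgeSet, 0 < ℓ e) → ∀ u ∉ X ℓ,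
        AllOps P w j (G.induce (compSet G (X ℓ) u))) → AllOps P w (j + 1) G
  | face {j : ℕ} {V : Type} {G : SimpleGraph V} {σ : Equiv.Perm G.Dart} {d : G.Dart} :
      SurfMap w G σ → (∀ u ∉ onFace σ d, AllOps P w j (G.induce (compSet G (onFace σ d) u))) →
      AllOps P w (j + 1) G
  | genus {j : ℕ} {V : Type} {G : SimpleGraph V} {σ : Equiv.Perm G.Dart} : SurfMap w G σ →
      (∀ S : Set V, (G.induce S).Connected → (∃ τ, SurfMap 0 (G.induce S) τ) →
        AllOps P w j (G.induce S)) → AllOps P w (j + 1) G

end Vale.Agent.P235
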