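import Vale.Agent.P235.ST.H690.Ops
import Vale.Agent.P235.ST.H945.FinalW

/-!
# P235: the planar theorem and what follows from it, in one statement
-/

namespace Vale.Agent.P235.ST.H690

open Vale.Agent.P235

theorem planarC : ∃ K : ℝ, PlanarC K := by
  obtain ⟨C, _, h, _⟩ := ST.H945.planarNear
  exact ⟨C, h⟩

/-- There is an absolute constant `C` such that for all finite connected graphs `G` (`c₁(G) ≤ K` is
`DistortionLE G K`):
(1) `c₁(G) ≤ C` if `G` is planar;
(2) `c₁(G) ≤ C (log (g + 2) + log (t + 2))` if deleting some `t` vertices leaves components of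
Euler genus at most `g` (`NearGenus g t`);
(3) `c₁(G) ≤ C (log (g + 2) + log (t + 2) + k (g' + log (s + 2)))` if for all lengths `k` rounds,
each of which deletes from every component a union of at most `s` lanes or the vertices on a face of
a rotation system of Euler genus at most `g'`, leave components as in (2);
(4) `c₁(G) ≤ C (log (g + 2) + log (t + 2) + √w)` if `G` has a path decomposition of adhesion at most
`w`, bags of any size, the components of the bags being as in (2);
(5) for all `w`, `j` the class obtained by `j` rounds of all operations (`AllOps`) from the graphs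
which are as in (2) with `g = t = w`, or of treewidth at most `w`, or with `c₁ ≤ w`, has bounded
`c₁`. -/
theorem v2 : ∃ C : ℝ, 1 ≤ C ∧
    (∀ (V : Type) [Finite V] (G : SimpleGraph V), G.Connected →
      (∃ σ : Equiv.Perm G.Dart, PlaneMap G σ) → DistortionLE G C) ∧
    (∀ (g t : ℕ) (V : Type) [Finite V] (G : SimpleGraph V), G.Connected →
      NearGenus g t V G → DistortionLE G (C * (Real.log (g + 2) + Real.log (t + 2)))) ∧
    (∀ (g t s g' k : ℕ) (V : Type) [Finite V] (G : SimpleGraph V), G.Connected →
      (∀ ℓ : Sym2 V → ℝ, (∀ e ∈ G.edgeSet, 0 < ℓ e) → SurfStrip (NearGenus g t) s g' k G ℓ) →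
      DistortionLE G (C * (Real.log (g + 2) + Real.log (t + 2) +
        k * (g' + Real.log (s + 2))))) ∧
    (∀ (g t w N : ℕ) (V : Type) [Finite V] (G : SimpleGraph V), G.Connected →
      ∀ (B : Fin N → Set V), PathDec G w B →
      (∀ i, ∀ u ∈ B i, NearGenus g t _ (G.induce (compSet G (B i)ᶜ u))) →
      DistortionLE G (C * (Real.log (g + 2) + Real.log (t + 2) + √w))) ∧
    (∀ w j : ℕ, ∃ K : ℝ, ∀ (V : Type) [Finite V] (G : SimpleGraph V), G.Connected →
      AllOps (fun V G => NearGenus w w V G ∨ TreewidthLE G w ∨ DistortionLE G w) w j G →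
      DistortionLE G K) := by
  obtain ⟨C, hC, h1, h2, h3, h4, -⟩ := closure planarC
  exact ⟨C, hC, h1, h2, h3, h4, allOps_c planarC⟩

end Vale.Agent.P235.ST.H690
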